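import Mathlib
import Vale.Agent.P052.Data

/-! Verified combinatorial facts about the 416-vertex graph. -/

namespace Vale.Agent.P052

def unpack (p i : ℕ) : ℕ := (p >>> (9 * i)) % 512

def adjB (i j : ℕ) : Bool := Nat.beq ((rowMask i >>> j) % 2) 1

def entry (i j : ℕ) : ℤ :=
  bif Nat.beq i j then 15 else bif adjB i j then 3 else -1

def allBelow (f : ℕ → Bool) : ℕ → Bool
  | 0 => true
  | n + 1 => f n && allBelow f n

theorem allBelow_spec {f : ℕ → Bool} : ∀ {n}, allBelow f n = true → ∀ i < n, f i = true
  | 0, _, i, hi => absurd hi (Nat.not_lt_zero i)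
  | n + 1, h, i, hi => by
    simp only [allBelow, Bool.and_eq_true] at h
    rcases Nat.lt_succ_iff_lt_or_eq.1 hi with hi | rfl
    · exact allBelow_spec h.2 i hi
    · exact h.1

def genP : ℕ → ℕ
  | 0 => gen0
  | 1 => gen1
  | _ => gen2

def genIP : ℕ → ℕ
  | 0 => genInv0
  | 1 => genInv1
  | _ => genInv2

def permOK (k : ℕ) : Bool :=
  allBelow (fun i => Nat.blt (unpack (genP k) i) 416 && Nat.blt (unpack (genIP k) i) 416 &&
    Nat.beq (unpack (genIP k) (unpack (genP k) i)) i &&
    Nat.beq (unpack (genP k) (unpack (genIP k) i)) i) 416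

theorem permOK_all : ∀ k < 3, permOK k = true := by decide +kernel

def genPerm (k : Fin 3) : Equiv.Perm (Fin 416) where
  toFun i := ⟨unpack (genP k) i, by
    have h := allBelow_spec (permOK_all k k.2) i i.2
    simp only [Bool.and_eq_true, Nat.blt_eq] at h
    exact h.1.1.1⟩
  invFun i := ⟨unpack (genIP k) i, by
    have h := allBelow_spec (permOK_all k k.2) i i.2
    simp only [Bool.and_eq_true, Nat.blt_eq] at h
    exact h.1.1.2⟩
  left_inv i := by
    have h := allBelow_spec (permOK_all k k.2) i i.2
    simp only [Bool.and_eq_true, Nat.beq_eq] at h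
    exact Fin.ext h.1.2
  right_inv i := by
    have h := allBelow_spec (permOK_all k k.2) i i.2
    simp only [Bool.and_eq_true, Nat.beq_eq] at h
    exact Fin.ext h.2

def invOK (k : ℕ) : Bool :=
  allBelow (fun i => allBelow (fun j =>
    Nat.beq ((rowMask i >>> j) % 2)
      ((rowMask (unpack (genP k) i) >>> unpack (genP k) j) % 2)) 416) 416

theorem invOK0 : invOK 0 = true := by decide +kernel
theorem invOK1 : invOK 1 = true := by decide +kernel
theorem invOK2 : invOK 2 = true := by decide +kernel

/-- The symmetric matrix with diagonal 15, entry 3 on edges and -1 elsewhere. -/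
def M (u v : Fin 416) : ℤ := entry u v

def Adj (u v : Fin 416) : Prop := adjB u v = true

theorem adjB_gen (k : Fin 3) (u v : Fin 416) :
    adjB (genPerm k u) (genPerm k v) = adjB u v := by
  have h : invOK k = true := by
    fin_cases k
    · exact invOK0
    · exact invOK1
    · exact invOK2
  have h1 := allBelow_spec (allBelow_spec h u u.2) v v.2
  rw [Nat.beq_eq] at h1
  unfold adjB genPerm
  simp only [Equiv.coe_fn_mk]
  rw [h1]

theorem M_gen (k : Fin 3) (u v : Fin 416) : M (genPerm k u) (genPerm k v) = M u v := by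
  have h : Nat.beq (genPerm k u : ℕ) (genPerm k v) = Nat.beq (u : ℕ) v := by
    rw [Bool.eq_iff_iff, Nat.beq_eq, Nat.beq_eq]
    exact ⟨fun h => congrArg Fin.val ((genPerm k).injective (Fin.ext h)),
      fun h => congrArg Fin.val (congrArg (genPerm k) (Fin.ext h))⟩
  unfold M entry
  rw [h, adjB_gen]

def bfsOK : Bool :=
  Nat.beq (unpack bfsOrder 0) 0 &&
  allBelow (fun p => Nat.beq p 0 ||
    (Nat.blt (unpack bfsPar p) p && Nat.blt (unpack bfsGen p) 3 &&
      Nat.beq (unpack bfsOrder p)
        (unpack (genP (unpack bfsGen p)) (unpack bfsOrder (unpack bfsPar p))))) 416 &&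
  allBelow (fun p => Nat.blt (unpack bfsOrder p) 416) 416 &&
  allBelow (fun i => Nat.blt (unpack bfsPos i) 416 &&
    Nat.beq (unpack bfsOrder (unpack bfsPos i)) i) 416

theorem bfsOK_true : bfsOK = true := by decide +kernel

theorem transitive_induction (P : Fin 416 → Prop) (h0 : P 0)
    (hs : ∀ (k : Fin 3) i, P i → P (genPerm k i)) (i : Fin 416) : P i := by
  have hb := bfsOK_true
  simp only [bfsOK, Bool.and_eq_true, Nat.beq_eq] at hb
  obtain ⟨⟨⟨hz, hp⟩, hl⟩, hc⟩ := hb
  have hlt2 : ∀ p < 416, unpack bfsOrder p < 416 := fun p hp =>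
    Nat.blt_eq.mp (allBelow_spec hl p hp)
  have key : ∀ p, p < 416 → ∀ u : Fin 416, (u : ℕ) = unpack bfsOrder p → P u := by
    intro p
    induction p using Nat.strong_induction_on with
    | _ p ih =>
      intro hp' u hu
      have h := allBelow_spec hp p hp'
      simp only [Bool.or_eq_true, Bool.and_eq_true, Nat.beq_eq, Nat.blt_eq] at h
      rcases h with rfl | ⟨⟨hlt, hk⟩, heq⟩
      · have : u = 0 := Fin.ext (hu.trans hz)
        rw [this]
        exact h0
      · have hq : unpack bfsPar p < 416 := lt_trans hlt hp'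
        have hv : unpack bfsOrder (unpack bfsPar p) < 416 := hlt2 _ hq
        have := hs ⟨_, hk⟩ ⟨_, hv⟩ (ih _ hlt hq _ rfl)
        have hu' : u = genPerm ⟨_, hk⟩ ⟨_, hv⟩ := Fin.ext (hu.trans heq)
        rw [hu']
        exact this
  have h := allBelow_spec hc i i.2
  simp only [Bool.and_eq_true, Nat.beq_eq, Nat.blt_eq] at h
  exact key _ h.1 i h.2.symm

def symmOK : Bool :=
  allBelow (fun j => (adjB 0 j == adjB j 0)) 416 && !adjB 0 0

theorem symmOK_true : symmOK = true := by decide +kernel

theorem adjB_symm (u v : Fin 416) : adjB u v = adjB v u := by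
  revert v
  refine transitive_induction (fun u => ∀ v : Fin 416, adjB u v = adjB v u) ?_ ?_ u
  · intro v
    have h := symmOK_true
    simp only [symmOK, Bool.and_eq_true] at h
    exact beq_iff_eq.1 (allBelow_spec h.1 v v.2)
  · intro k i hi v
    obtain ⟨v', rfl⟩ := (genPerm k).surjective v
    rw [adjB_gen, adjB_gen, hi]

theorem adjB_self (u : Fin 416) : adjB u u = false := by
  refine transitive_induction (fun u => adjB u u = false) ?_ ?_ u
  · have h := symmOK_true
    simp only [symmOK, Bool.and_eq_true, Bool.not_eq_true'] at h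
    exact h.2
  · intro k i hi
    rw [adjB_gen, hi]

theorem M_symm (u v : Fin 416) : M u v = M v u := by
  have h : Nat.beq (u : ℕ) v = Nat.beq (v : ℕ) u := by
    rw [Bool.eq_iff_iff, Nat.beq_eq, Nat.beq_eq]
    exact eq_comm
  unfold M entry
  rw [h, adjB_symm]

theorem M_self (u : Fin 416) : M u u = 15 := by
  have h : Nat.beq (u : ℕ) u = true := by rw [Nat.beq_eq]
  unfold M entry
  rw [h]; rfl

theorem M_ne {u v : Fin 416} (h : u ≠ v) :
    M u v = if adjB u v = true then 3 else -1 := by
  have h1 : Nat.beq (u : ℕ) v = false := by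
    rw [← Bool.not_eq_true, Nat.beq_eq]
    exact fun e => h (Fin.ext e)
  unfold M entry
  rw [h1]
  cases adjB u v <;> rfl

def rowProd (j : ℕ) : ℕ → ℤ
  | 0 => 0
  | v + 1 => rowProd j v + entry 0 v * entry v j

theorem rowProd_eq (j n : ℕ) :
    rowProd j n = ∑ v ∈ Finset.range n, entry 0 v * entry v j := by
  induction n with
  | zero => rfl
  | succ n ih => rw [rowProd, Finset.sum_range_succ, ih]

def sqOK : Bool := allBelow (fun j => rowProd j 416 == 96 * entry 0 j) 416

theorem sqOK_true : sqOK = true := by decide +kernel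

theorem M_sq (u j : Fin 416) : ∑ v, M u v * M v j = 96 * M u j := by
  revert j
  refine transitive_induction (fun u => ∀ j, ∑ v, M u v * M v j = 96 * M u j) ?_ ?_ u
  · intro j
    have h := beq_iff_eq.1 (allBelow_spec sqOK_true j j.2)
    rw [rowProd_eq, ← Fin.sum_univ_eq_sum_range (fun v => entry 0 v * entry v j)] at h
    exact h
  · intro k i hi j
    obtain ⟨j', rfl⟩ := (genPerm k).surjective j
    rw [← Equiv.sum_comp (genPerm k)]
    simp only [M_gen]
    exact hi j'

end Vale.Agent.P052
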