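import Mathlib
import Vale.Agent.P052.Graph

/-! The clique bound and the two eigenvectors. -/

namespace Vale.Agent.P052

def signSum (lp ln : List ℕ) (f : ℕ → ℤ) : ℤ :=
  (lp.map f).sum - (ln.map f).sum

def ind (u : ℕ) (p : ℕ) : ℤ := bif Nat.beq u p then 1 else 0

def Y1 (u : Fin 416) : ℤ := signSum supp1Pos supp1Neg (ind u)

def Y2 (u : Fin 416) : ℤ := signSum supp2Pos supp2Neg (ind u)

theorem sum_mul_map_ind (g : ℕ → ℤ) : ∀ l : List ℕ, (∀ p ∈ l, p < 416) →
    ∑ v : Fin 416, g v * (l.map (ind v)).sum = (l.map g).sum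
  | [], _ => by simp
  | p :: l, h => by
    simp only [List.map_cons, List.sum_cons, mul_add, Finset.sum_add_distrib]
    rw [sum_mul_map_ind g l fun q hq => h q (List.mem_cons_of_mem _ hq)]
    congr 1
    have hp : p < 416 := h p List.mem_cons_self
    rw [Finset.sum_eq_single (⟨p, hp⟩ : Fin 416)]
    · simp [ind]
    · intro v _ hv
      have : Nat.beq (v : ℕ) p = false := by
        rw [← Bool.not_eq_true, Nat.beq_eq]
        exact fun e => hv (Fin.ext e)
      simp [ind, this]
    · simp

theorem sum_mul_signSum (g : ℕ → ℤ) (lp ln : List ℕ) (hp : ∀ p ∈ lp, p < 416)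
    (hn : ∀ p ∈ ln, p < 416) :
    ∑ v : Fin 416, g v * signSum lp ln (ind v) = signSum lp ln g := by
  simp only [signSum, mul_sub, Finset.sum_sub_distrib]
  rw [sum_mul_map_ind g lp hp, sum_mul_map_ind g ln hn]

theorem supp_lt : (∀ p ∈ supp1Pos, p < 416) ∧ (∀ p ∈ supp1Neg, p < 416) ∧
    (∀ p ∈ supp2Pos, p < 416) ∧ (∀ p ∈ supp2Neg, p < 416) := by
  decide +kernel

def eigOK (lp ln : List ℕ) : Bool :=
  allBelow (fun u => signSum lp ln (entry u) == 96 * signSum lp ln (ind u)) 416

theorem eigOK1 : eigOK supp1Pos supp1Neg = true := by decide +kernel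
theorem eigOK2 : eigOK supp2Pos supp2Neg = true := by decide +kernel

theorem M_Y1 (u : Fin 416) : ∑ v, M u v * Y1 v = 96 * Y1 u :=
  (sum_mul_signSum (entry u) _ _ supp_lt.1 supp_lt.2.1).trans
    (beq_iff_eq.1 (allBelow_spec eigOK1 u u.2))

theorem M_Y2 (u : Fin 416) : ∑ v, M u v * Y2 v = 96 * Y2 u :=
  (sum_mul_signSum (entry u) _ _ supp_lt.2.2.1 supp_lt.2.2.2).trans
    (beq_iff_eq.1 (allBelow_spec eigOK2 u u.2))

theorem Y1_sq : ∑ v, Y1 v * Y1 v = 64 := by
  refine (sum_mul_signSum (fun p => signSum supp1Pos supp1Neg (ind p)) _ _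
    supp_lt.1 supp_lt.2.1).trans ?_
  decide +kernel

theorem Y2_sq : ∑ v, Y2 v * Y2 v = 64 := by
  refine (sum_mul_signSum (fun p => signSum supp2Pos supp2Neg (ind p)) _ _
    supp_lt.2.2.1 supp_lt.2.2.2).trans ?_
  decide +kernel

theorem Y1_Y2 : ∑ v, Y1 v * Y2 v = -32 := by
  refine (sum_mul_signSum (fun p => signSum supp1Pos supp1Neg (ind p)) _ _
    supp_lt.2.2.1 supp_lt.2.2.2).trans ?_
  decide +kernel

def apex : Fin 416 := ⟨apexVertex, by decide +kernel⟩

theorem apex_Y : Y1 apex = 1 ∧ Y2 apex = 0 := by decide +kernel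

def zeroB (u : ℕ) : Bool :=
  signSum supp1Pos supp1Neg (ind u) == 0 && signSum supp2Pos supp2Neg (ind u) == 0

def section320 : Finset (Fin 416) := Finset.univ.filter fun u : Fin 416 => zeroB u = true

theorem mem_section320 {u : Fin 416} (h : u ∈ section320) : Y1 u = 0 ∧ Y2 u = 0 := by
  simpa [section320, zeroB, Y1, Y2] using h

theorem card_section320 : section320.card = 320 := by decide +kernel

def points321 : Finset (Fin 416) := insert apex section320

theorem card_points321 : points321.card = 321 := by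
  have h : apex ∉ section320 := fun h => by
    have h1 := (mem_section320 h).1
    rw [apex_Y.1] at h1
    exact one_ne_zero h1
  rw [points321, Finset.card_insert_of_notMem h, card_section320]

def branch (rec : List ℕ → Bool) : List ℕ → Bool
  | [] => true
  | v :: l => rec (l.filter fun u => adjB v u) && branch rec l

def noClique : ℕ → List ℕ → Bool
  | 0, _ => false
  | k + 1, l => branch (noClique k) l

theorem noClique_sound : ∀ (k : ℕ) (l : List ℕ), noClique k l = true →
    ∀ s : Finset (Fin 416), (∀ v ∈ s, (v : ℕ) ∈ l) →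
      (∀ u ∈ s, ∀ v ∈ s, u ≠ v → adjB u v = true) → s.card < k
  | 0, l, h, _, _, _ => by simp [noClique] at h
  | k + 1, [], _, s, hs, _ => by
    have : s = ∅ := Finset.eq_empty_of_forall_notMem fun v hv => by simpa using hs v hv
    simp [this]
  | k + 1, v :: l, h, s, hs, hc => by
    simp only [noClique, branch, Bool.and_eq_true] at h
    by_cases hv : ∃ u ∈ s, (u : ℕ) = v
    · obtain ⟨u, hu, hu'⟩ := hv
      have hlt := noClique_sound k _ h.1 (s.erase u) (fun x hx => by
          obtain ⟨hne, hx⟩ := Finset.mem_erase.1 hx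
          rw [List.mem_filter]
          have hadj : adjB v x = true := by
            rw [← hu']
            exact hc u hu x hx (Ne.symm hne)
          rcases List.mem_cons.1 (hs x hx) with e | e
          · exact absurd (Fin.ext (e.trans hu'.symm)) hne
          · exact ⟨e, hadj⟩)
        (fun a ha b hb => hc a (Finset.mem_of_mem_erase ha) b (Finset.mem_of_mem_erase hb))
      have := Finset.card_erase_add_one hu
      omega
    · push Not at hv
      refine noClique_sound (k + 1) l ?_ s (fun x hx => ?_) hc
      · simpa [noClique] using h.2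
      · exact (List.mem_cons.1 (hs x hx)).resolve_left (hv x hx)
termination_by k l => (k, l.length)

def nbrList : List ℕ := (List.range 416).filter fun u => adjB 0 u

theorem noClique_nbr : noClique 5 nbrList = true := by decide +kernel

theorem clique_card_le (u : Fin 416) : ∀ s : Finset (Fin 416), u ∈ s →
    (∀ a ∈ s, ∀ b ∈ s, a ≠ b → adjB a b = true) → s.card ≤ 5 := by
  refine transitive_induction (fun u => ∀ s : Finset (Fin 416), u ∈ s →
    (∀ a ∈ s, ∀ b ∈ s, a ≠ b → adjB a b = true) → s.card ≤ 5) ?_ ?_ u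
  · intro s hs hc
    have h := noClique_sound 5 nbrList noClique_nbr (s.erase 0)
      (fun x hx => by
        obtain ⟨hne, hx⟩ := Finset.mem_erase.1 hx
        rw [nbrList, List.mem_filter, List.mem_range]
        exact ⟨x.2, hc 0 hs x hx (Ne.symm hne)⟩)
      (fun a ha b hb => hc a (Finset.mem_of_mem_erase ha) b (Finset.mem_of_mem_erase hb))
    have := Finset.card_erase_add_one hs
    omega
  · intro k i hi s hs hc
    have h := hi (s.map (genPerm k).symm.toEmbedding)
      (by simpa [Finset.mem_map] using hs) (fun a ha b hb hab => by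
        rw [Finset.mem_map_equiv, Equiv.symm_symm] at ha hb
        rw [← adjB_gen k]
        exact hc _ ha _ hb fun e => hab ((genPerm k).injective e))
    rwa [Finset.card_map] at h

end Vale.Agent.P052
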