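import Mathlib

/-! A weighted counting criterion for Borsuk numbers, and transport to coordinate space. -/

namespace Vale.Agent.P052

open Metric Module

/-- A weighted finite configuration certifying that every union of `n` sets equal to it has a part
of full diameter. -/
theorem cover_criterion {E : Type*} [NormedAddCommGroup E] [InnerProductSpace ℝ E]
    [FiniteDimensional ℝ E] {d : ℕ} (hdim : finrank ℝ E = d) {ι : Type*} [Fintype ι]
    (p : ι → E) (D : ℝ) (hD : 0 < D) (hle : ∀ i j, dist (p i) (p j) ≤ D)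
    (hatt : ∃ i j, dist (p i) (p j) = D) (W : ι → ℕ) (c : ℕ)
    (hcl : ∀ s : Finset ι, (∀ i ∈ s, ∀ j ∈ s, dist (p i) (p j) < D) → ∑ i ∈ s, W i ≤ c)
    (hbig : c * (d + 1) < ∑ i, W i) :
    ∃ Y : Set (EuclideanSpace ℝ (Fin d)), Bornology.IsBounded Y ∧ 0 < Metric.diam Y ∧
      ∀ A : Fin (d + 1) → Set (EuclideanSpace ℝ (Fin d)), (⋃ i, A i) = Y →
        ∃ i, Metric.diam Y ≤ Metric.diam (A i) := by
  let L : E ≃ₗᵢ[ℝ] EuclideanSpace ℝ (Fin d) :=
    (stdOrthonormalBasis ℝ E).repr.trans
      (LinearIsometryEquiv.piLpCongrLeft 2 ℝ ℝ (finCongr hdim))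
  let q : ι → EuclideanSpace ℝ (Fin d) := fun i => L (p i)
  have hq : ∀ i j, dist (q i) (q j) = dist (p i) (p j) := fun i j => L.dist_map _ _
  obtain ⟨a, b, hab⟩ := hatt
  have hb : Bornology.IsBounded (Set.range q) := (Set.finite_range q).isBounded
  have hdiam : diam (Set.range q) = D := by
    refine le_antisymm (diam_le_of_forall_dist_le hD.le ?_) ?_
    · rintro _ ⟨i, rfl⟩ _ ⟨j, rfl⟩
      exact (hq i j).trans_le (hle i j)
    · rw [← hab, ← hq]
      exact dist_le_diam_of_mem hb ⟨a, rfl⟩ ⟨b, rfl⟩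
  refine ⟨Set.range q, hb, hdiam ▸ hD, fun A hA => ?_⟩
  by_contra hc
  push Not at hc
  rw [hdiam] at hc
  have hmem : ∀ x, ∃ k, q x ∈ A k := fun x => by
    have : q x ∈ ⋃ k, A k := hA ▸ Set.mem_range_self x
    simpa using this
  choose k hk using hmem
  have hfib : ∀ t : Fin (d + 1), ∑ x ∈ Finset.univ.filter (fun x => k x = t), W x ≤ c := by
    intro t
    refine hcl _ fun i hi j hj => ?_
    simp only [Finset.mem_filter, Finset.mem_univ, true_and] at hi hj
    have hA' : Bornology.IsBounded (A t) := hb.subset (hA ▸ Set.subset_iUnion A t)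
    calc dist (p i) (p j) = dist (q i) (q j) := (hq i j).symm
      _ ≤ diam (A t) := dist_le_diam_of_mem hA' (hi ▸ hk i) (hj ▸ hk j)
      _ < D := hc t
  have hsum : ∑ i, W i = ∑ t, ∑ x ∈ Finset.univ.filter (fun x => k x = t), W x :=
    (Finset.sum_fiberwise Finset.univ k W).symm
  have hbound : ∑ i, W i ≤ c * (d + 1) := by
    rw [hsum]
    refine (Finset.sum_le_sum fun t _ => hfib t).trans ?_
    simp [mul_comm]
  omega

end Vale.Agent.P052
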