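import Mathlib
import Vale.Agent.P052.Cert

/-! Euclidean realisation of the 321 points in a 63-dimensional space. -/

namespace Vale.Agent.P052

open scoped RealInnerProductSpace
open Module

abbrev E416 := EuclideanSpace ℝ (Fin 416)

noncomputable def vec (f : Fin 416 → ℤ) : E416 := WithLp.toLp 2 fun v => (f v : ℝ)

theorem inner_vec (f g : Fin 416 → ℤ) : ⟪vec f, vec g⟫ = ((∑ v, f v * g v : ℤ) : ℝ) := by
  simp [vec, PiLp.inner_apply, mul_comm]

noncomputable def row (u : Fin 416) : E416 := vec (M u)

noncomputable def e1 : E416 := vec Y1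
noncomputable def e2 : E416 := vec Y2

theorem inner_row_row (u v : Fin 416) : ⟪row u, row v⟫ = 96 * (M u v : ℝ) := by
  have h : ∑ x, M u x * M v x = 96 * M u v := by
    rw [← M_sq]
    exact Finset.sum_congr rfl fun x _ => by rw [M_symm v x]
  rw [row, row, inner_vec, h]; push_cast; rfl

theorem inner_row_e1 (u : Fin 416) : ⟪row u, e1⟫ = 96 * (Y1 u : ℝ) := by
  rw [row, e1, inner_vec, M_Y1]; push_cast; rfl

theorem inner_row_e2 (u : Fin 416) : ⟪row u, e2⟫ = 96 * (Y2 u : ℝ) := by
  rw [row, e2, inner_vec, M_Y2]; push_cast; rfl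

theorem inner_e1_e1 : ⟪e1, e1⟫ = 64 := by rw [e1, inner_vec, Y1_sq]; norm_num
theorem inner_e2_e2 : ⟪e2, e2⟫ = 64 := by rw [e2, inner_vec, Y2_sq]; norm_num
theorem inner_e1_e2 : ⟪e1, e2⟫ = -32 := by rw [e1, e2, inner_vec, Y1_Y2]; norm_num

noncomputable def Pmat : Matrix (Fin 416) (Fin 416) ℝ := fun u v => (M u v : ℝ) / 96

theorem Pmat_sq : Pmat * Pmat = Pmat := by
  ext u j
  have h : ∑ v, (M u v : ℝ) * (M v j : ℝ) = 96 * (M u j : ℝ) := by exact_mod_cast M_sq u j
  calc (Pmat * Pmat) u j = (∑ v, (M u v : ℝ) * (M v j : ℝ)) / (96 * 96) := by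
        rw [Matrix.mul_apply, Finset.sum_div]
        exact Finset.sum_congr rfl fun v _ => by unfold Pmat; ring
    _ = Pmat u j := by rw [h]; unfold Pmat; ring

noncomputable def proj : E416 →ₗ[ℝ] E416 := Matrix.toEuclideanLin Pmat

noncomputable def big : Submodule ℝ E416 := LinearMap.range proj

theorem proj_proj (x : E416) : proj (proj x) = proj x := by
  simp [proj, Matrix.mulVec_mulVec, Pmat_sq, Matrix.toLpLin_apply]

theorem finrank_big : finrank ℝ big = 65 := by
  have hp : LinearMap.IsProj big proj := by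
    refine ⟨fun x => LinearMap.mem_range_self _ x, fun x hx => ?_⟩
    obtain ⟨y, rfl⟩ := hx
    exact proj_proj y
  have h := hp.trace
  have ht : LinearMap.trace ℝ E416 proj = Pmat.trace := by
    rw [LinearMap.trace_eq_matrix_trace ℝ (EuclideanSpace.basisFun (Fin 416) ℝ).toBasis]
    congr 1
    ext u v
    simp [proj, LinearMap.toMatrix_apply, Matrix.toLpLin_apply]
  have ht2 : Pmat.trace = 65 := by
    simp [Matrix.trace, Pmat, M_self]
    norm_num
  rw [ht, ht2] at h
  exact_mod_cast h.symm

theorem vec_mem_big (f : Fin 416 → ℤ) (hf : ∀ u, ∑ v, M u v * f v = 96 * f u) :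
    vec f ∈ big := by
  refine ⟨vec f, ?_⟩
  ext u
  have h : ∑ v, (M u v : ℝ) * (f v : ℝ) = 96 * (f u : ℝ) := by exact_mod_cast hf u
  simp only [proj, Matrix.toLpLin_apply, vec, Matrix.mulVec, dotProduct]
  calc ∑ v, Pmat u v * (f v : ℝ) = (∑ v, (M u v : ℝ) * (f v : ℝ)) / 96 := by
        rw [Finset.sum_div]
        exact Finset.sum_congr rfl fun v _ => by unfold Pmat; ring
    _ = (f u : ℝ) := by rw [h]; ring

noncomputable def plane : Submodule ℝ E416 := Submodule.span ℝ (Set.range ![e1, e2])

noncomputable def space63 : Submodule ℝ E416 := planeᗮ ⊓ big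

theorem finrank_space63 : finrank ℝ space63 = 63 := by
  have hli : LinearIndependent ℝ ![e1, e2] := by
    rw [LinearIndependent.pair_iff]
    intro s t h
    have ha := congrArg (fun x => ⟪e1, x⟫) h
    have hb := congrArg (fun x => ⟪e2, x⟫) h
    simp only [inner_add_right, real_inner_smul_right, inner_zero_right,
      real_inner_comm e1 e2, inner_e1_e1, inner_e2_e2, inner_e1_e2] at ha hb
    constructor <;> linarith
  have h2 : finrank ℝ plane = 2 := by
    rw [plane, finrank_span_eq_card hli]; simp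
  have hle : plane ≤ big := by
    rw [plane, Submodule.span_le]
    rintro x ⟨i, rfl⟩
    fin_cases i
    · exact vec_mem_big Y1 M_Y1
    · exact vec_mem_big Y2 M_Y2
  have h : finrank ℝ plane + finrank ℝ space63 = finrank ℝ big :=
    Submodule.finrank_add_inf_finrank_orthogonal hle
  rw [h2, finrank_big] at h
  omega

theorem mem_space63 {x : E416} (hx : x ∈ big) (h1 : ⟪x, e1⟫ = 0) (h2 : ⟪x, e2⟫ = 0) :
    x ∈ space63 := by
  refine Submodule.mem_inf.2 ⟨?_, hx⟩
  rw [Submodule.mem_orthogonal]
  intro y hy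
  induction hy using Submodule.span_induction with
  | mem z hz =>
    obtain ⟨i, rfl⟩ := hz
    fin_cases i
    · simpa [real_inner_comm] using h1
    · simpa [real_inner_comm] using h2
  | zero => simp
  | add a b _ _ ha hb => simp [inner_add_left, ha, hb]
  | smul a z _ hz => simp [real_inner_smul_left, hz]

theorem row_mem_big (u : Fin 416) : row u ∈ big :=
  vec_mem_big (M u) fun i => by
    rw [← M_symm i u, ← M_sq i u]
    exact Finset.sum_congr rfl fun v _ => by rw [M_symm u v]

noncomputable def apexDir : E416 := row apex - (2 : ℝ) • e1 - e2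

theorem apexDir_e1 : ⟪apexDir, e1⟫ = 0 := by
  simp only [apexDir, inner_sub_left, real_inner_smul_left, inner_row_e1, inner_e1_e1,
    real_inner_comm e1 e2, inner_e1_e2, apex_Y.1]
  norm_num

theorem apexDir_e2 : ⟪apexDir, e2⟫ = 0 := by
  simp only [apexDir, inner_sub_left, real_inner_smul_left, inner_row_e2, inner_e2_e2,
    inner_e1_e2, apex_Y.2]
  norm_num

theorem apexDir_apexDir : ⟪apexDir, apexDir⟫ = 1248 := by
  have h : ⟪apexDir, apexDir⟫ = ⟪apexDir, row apex⟫ := by
    rw [show (⟪apexDir, apexDir⟫ : ℝ) = ⟪apexDir, row apex - (2 : ℝ) • e1 - e2⟫ from rfl]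
    simp [inner_sub_right, real_inner_smul_right, apexDir_e1, apexDir_e2]
  rw [h, real_inner_comm, apexDir]
  simp only [inner_sub_right, real_inner_smul_right, inner_row_row,
    inner_row_e1, inner_row_e2, M_self, apex_Y.1, apex_Y.2]
  norm_num

theorem apexDir_row {v : Fin 416} (hv : v ∈ section320) :
    ⟪apexDir, row v⟫ = 96 * (M apex v : ℝ) := by
  obtain ⟨h1, h2⟩ := mem_section320 hv
  rw [real_inner_comm, apexDir]
  simp only [inner_sub_right, real_inner_smul_right, inner_row_row, inner_row_e1, inner_row_e2,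
    h1, h2, M_symm v apex]
  norm_num

/-- The positive root of 13 s² + 2 s - 17 = 0. -/
noncomputable def scale : ℝ := (Real.sqrt 222 - 1) / 13

theorem scale_eq : 13 * scale ^ 2 + 2 * scale - 17 = 0 := by
  have h : Real.sqrt 222 ^ 2 = 222 := Real.sq_sqrt (by norm_num)
  have hs : Real.sqrt 222 = 13 * scale + 1 := by unfold scale; ring
  rw [hs] at h
  nlinarith [h]

theorem scale_pos : 0 < scale := by
  have : (1 : ℝ) < Real.sqrt 222 := by
    rw [Real.lt_sqrt (by norm_num)]; norm_num
  unfold scale
  linarith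

noncomputable def pt (u : Fin 416) : E416 := if u = apex then scale • apexDir else row u

theorem pt_apex : pt apex = scale • apexDir := if_pos rfl

theorem pt_section {u : Fin 416} (hu : u ∈ section320) : pt u = row u := by
  refine if_neg ?_
  rintro rfl
  have h1 := (mem_section320 hu).1
  rw [apex_Y.1] at h1
  exact one_ne_zero h1

theorem pt_mem {u : Fin 416} (hu : u ∈ points321) : pt u ∈ space63 := by
  rcases Finset.mem_insert.1 hu with rfl | hu
  · rw [pt_apex]
    refine Submodule.smul_mem _ _ (mem_space63 ?_ apexDir_e1 apexDir_e2)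
    exact sub_mem (sub_mem (row_mem_big _) (Submodule.smul_mem _ _ (vec_mem_big Y1 M_Y1)))
      (vec_mem_big Y2 M_Y2)
  · rw [pt_section hu]
    obtain ⟨h1, h2⟩ := mem_section320 hu
    refine mem_space63 (row_mem_big u) ?_ ?_
    · rw [inner_row_e1, h1]; norm_num
    · rw [inner_row_e2, h2]; norm_num

theorem normSq_pair {u v : Fin 416} (hu : u ∈ section320) (hv : v ∈ section320) (hne : u ≠ v) :
    ‖pt u - pt v‖ ^ 2 = if adjB u v = true then (2304 : ℝ) else 3072 := by
  rw [pt_section hu, pt_section hv, norm_sub_sq_real, ← real_inner_self_eq_norm_sq,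
    ← real_inner_self_eq_norm_sq, inner_row_row, inner_row_row, inner_row_row, M_self, M_self,
    M_ne hne]
  split <;> norm_num

theorem normSq_apex {v : Fin 416} (hv : v ∈ section320) (hne : apex ≠ v) :
    ‖pt apex - pt v‖ ^ 2 = if adjB apex v = true then 3072 - 768 * scale else (3072 : ℝ) := by
  rw [pt_apex, pt_section hv, norm_sub_sq_real, ← real_inner_self_eq_norm_sq,
    ← real_inner_self_eq_norm_sq, real_inner_smul_left, real_inner_smul_left,
    real_inner_smul_right, apexDir_apexDir, apexDir_row hv, inner_row_row, M_self, M_ne hne]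
  have hs := scale_eq
  split <;> push_cast <;> nlinarith [hs]

theorem normSq_cases {u v : Fin 416} (hu : u ∈ points321) (hv : v ∈ points321) (hne : u ≠ v) :
    (adjB u v = true → ‖pt u - pt v‖ ^ 2 < 3072) ∧
      (adjB u v = false → ‖pt u - pt v‖ ^ 2 = 3072) := by
  have hpos := scale_pos
  rcases Finset.mem_insert.1 hu with rfl | hu <;> rcases Finset.mem_insert.1 hv with rfl | hv
  · exact absurd rfl hne
  · rw [normSq_apex hv hne]
    constructor <;> intro h <;> simp only [h, Bool.false_eq_true, if_true, if_false]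
    linarith
  · rw [norm_sub_rev, normSq_apex hu hne.symm, adjB_symm u]
    constructor <;> intro h <;> simp only [h, Bool.false_eq_true, if_true, if_false]
    linarith
  · rw [normSq_pair hu hv hne]
    constructor <;> intro h <;> simp [h]
    norm_num

theorem exists_points :
    ∃ (p : Fin 321 → EuclideanSpace ℝ (Fin 63)) (D : ℝ), 0 < D ∧
      (∀ i j, dist (p i) (p j) ≤ D) ∧
      (∀ s : Finset (Fin 321), (∀ i ∈ s, ∀ j ∈ s, dist (p i) (p j) < D) → s.card ≤ 5) ∧
      ∃ i j, dist (p i) (p j) = D := by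
  let L : space63 ≃ₗᵢ[ℝ] EuclideanSpace ℝ (Fin 63) :=
    (stdOrthonormalBasis ℝ space63).repr.trans
      (LinearIsometryEquiv.piLpCongrLeft 2 ℝ ℝ (finCongr finrank_space63))
  let f : Fin 321 ≃ points321 := (finCongr card_points321.symm).trans points321.equivFin.symm
  let p : Fin 321 → EuclideanSpace ℝ (Fin 63) := fun i => L ⟨pt (f i), pt_mem (f i).2⟩
  have hd : ∀ i j, dist (p i) (p j) = ‖pt (f i) - pt (f j)‖ := fun i j => by
    simp only [p, L.dist_map]
    rfl
  have hne : ∀ {i j}, i ≠ j → (f i : Fin 416) ≠ f j := fun h e => h (f.injective (Subtype.ext e))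
  have hD : (0 : ℝ) < Real.sqrt 3072 := by positivity
  have hsq : Real.sqrt 3072 ^ 2 = 3072 := Real.sq_sqrt (by norm_num)
  refine ⟨p, Real.sqrt 3072, hD, fun i j => ?_, fun s hs => ?_, ?_⟩
  · rw [hd]
    rcases eq_or_ne i j with rfl | h
    · simpa using hD.le
    refine Real.le_sqrt_of_sq_le ?_
    have hc := normSq_cases (f i).2 (f j).2 (hne h)
    rcases Bool.eq_false_or_eq_true (adjB (f i : Fin 416) (f j : Fin 416)) with e | e
    · exact (hc.1 e).le
    · exact (hc.2 e).le
  · rcases s.eq_empty_or_nonempty with rfl | ⟨i0, hi0⟩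
    · simp
    let g : Fin 321 ↪ Fin 416 := f.toEmbedding.trans (Function.Embedding.subtype _)
    have h := clique_card_le (g i0) (s.map g) (Finset.mem_map_of_mem g hi0) (by
      intro a ha b hb hab
      obtain ⟨i, hi, rfl⟩ := Finset.mem_map.1 ha
      obtain ⟨j, hj, rfl⟩ := Finset.mem_map.1 hb
      by_contra hc
      have hlt := hs i hi j hj
      rw [hd] at hlt
      have heq := (normSq_cases (f i).2 (f j).2 hab).2 (Bool.not_eq_true _ ▸ hc)
      have := pow_lt_pow_left₀ hlt (norm_nonneg _) two_ne_zero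
      rw [heq, hsq] at this
      exact lt_irrefl _ this)
    rwa [Finset.card_map] at h
  · by_contra hc
    push Not at hc
    have hle : ∀ i j, dist (p i) (p j) ≤ Real.sqrt 3072 := fun i j => by
      rw [hd]
      rcases eq_or_ne i j with rfl | h
      · simpa using hD.le
      refine Real.le_sqrt_of_sq_le ?_
      have hh := normSq_cases (f i).2 (f j).2 (hne h)
      rcases Bool.eq_false_or_eq_true (adjB (f i : Fin 416) (f j : Fin 416)) with e | e
      · exact (hh.1 e).le
      · exact (hh.2 e).le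
    let g : Fin 321 ↪ Fin 416 := f.toEmbedding.trans (Function.Embedding.subtype _)
    have h := clique_card_le (g 0) (Finset.univ.map g)
      (Finset.mem_map_of_mem g (Finset.mem_univ _)) (by
      intro a ha b hb hab
      obtain ⟨i, _, rfl⟩ := Finset.mem_map.1 ha
      obtain ⟨j, _, rfl⟩ := Finset.mem_map.1 hb
      by_contra he
      have heq := (normSq_cases (f i).2 (f j).2 hab).2 (Bool.not_eq_true _ ▸ he)
      refine hc i j ?_
      rw [hd, ← heq, Real.sqrt_sq (norm_nonneg _)])
    simp at h

end Vale.Agent.P052
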