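import Mathlib
import Vale.Agent.P052.Geometry
import Vale.Agent.P052.Cover

/-! The 352-point section joined with a regular simplex. -/

namespace Vale.Agent.P052

open scoped RealInnerProductSpace
open Module

noncomputable def space64 : Submodule ℝ E416 := (Submodule.span ℝ {e1})ᗮ ⊓ big

theorem finrank_space64 : finrank ℝ space64 = 64 := by
  have hne : e1 ≠ 0 := fun h => by
    have := inner_e1_e1
    rw [h, inner_zero_left] at this
    norm_num at this
  have hle : Submodule.span ℝ {e1} ≤ big := by
    rw [Submodule.span_le]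
    rintro x rfl
    exact vec_mem_big Y1 M_Y1
  have h : finrank ℝ (Submodule.span ℝ {e1}) + finrank ℝ space64 = finrank ℝ big :=
    Submodule.finrank_add_inf_finrank_orthogonal hle
  rw [finrank_span_singleton hne, finrank_big] at h
  omega

def section352 : Finset (Fin 416) :=
  Finset.univ.filter fun u : Fin 416 => (signSum supp1Pos supp1Neg (ind u) == 0) = true

theorem card_section352 : section352.card = 352 := by decide +kernel

theorem mem_section352 {u : Fin 416} (h : u ∈ section352) : Y1 u = 0 := by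
  simpa [section352, Y1] using h

theorem row_mem_space64 {u : Fin 416} (h : u ∈ section352) : row u ∈ space64 := by
  refine Submodule.mem_inf.2 ⟨?_, row_mem_big u⟩
  rw [Submodule.mem_orthogonal_singleton_iff_inner_left, inner_row_e1, mem_section352 h]
  norm_num

theorem exists_shift (k : ℕ) : ∃ τ : ℝ, (k : ℝ) * τ ^ 2 + 2 * Real.sqrt 1536 * τ = 96 := by
  rcases Nat.eq_zero_or_pos k with rfl | hk
  · refine ⟨48 / Real.sqrt 1536, ?_⟩
    have : (0 : ℝ) < Real.sqrt 1536 := by positivity
    field_simp
    push_cast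
    ring
  · refine ⟨(Real.sqrt (1536 + 96 * k) - Real.sqrt 1536) / k, ?_⟩
    have hk' : (k : ℝ) ≠ 0 := by exact_mod_cast (Nat.pos_iff_ne_zero.1 hk)
    have h1 : Real.sqrt (1536 + 96 * k) ^ 2 = 1536 + 96 * k := Real.sq_sqrt (by positivity)
    have h2 : Real.sqrt 1536 ^ 2 = 1536 := Real.sq_sqrt (by norm_num)
    generalize Real.sqrt (1536 + 96 * k) = q at *
    field_simp
    linear_combination h1 - h2

theorem exists_simplex (k : ℕ) : ∃ a : Fin k → EuclideanSpace ℝ (Fin k),
    (∀ i, ‖a i‖ ^ 2 = 1632) ∧ ∀ i j, i ≠ j → ‖a i - a j‖ ^ 2 = 3072 := by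
  obtain ⟨τ, hτ⟩ := exists_shift k
  have h2 : Real.sqrt 1536 ^ 2 = 1536 := Real.sq_sqrt (by norm_num)
  refine ⟨fun i => WithLp.toLp 2 fun l => τ + if l = i then Real.sqrt 1536 else 0, ?_, ?_⟩
  · intro i
    rw [EuclideanSpace.norm_sq_eq]
    simp only [Real.norm_eq_abs, sq_abs, add_sq, Finset.sum_add_distrib, ite_pow, mul_ite,
      mul_zero, Finset.sum_ite_eq', Finset.mem_univ, if_true, zero_pow two_ne_zero,
      Finset.sum_const, Finset.card_univ, Fintype.card_fin, nsmul_eq_mul]
    linear_combination hτ + h2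
  · intro i j hij
    rw [EuclideanSpace.norm_sq_eq]
    have h : ∀ l : Fin k,
        (if l = i then Real.sqrt 1536 else 0) * (if l = j then Real.sqrt 1536 else 0) = 0 := by
      intro l
      split <;> simp_all
    simp only [PiLp.sub_apply, Real.norm_eq_abs, sq_abs, add_sub_add_left_eq_sub, sub_sq,
      mul_assoc, h, mul_zero, sub_zero, Finset.sum_add_distrib, ite_pow, zero_pow two_ne_zero,
      Finset.sum_ite_eq', Finset.mem_univ, if_true]
    linarith

theorem join_counterexample (k : ℕ) :
    ∃ Y : Set (EuclideanSpace ℝ (Fin (64 + k))), Bornology.IsBounded Y ∧ 0 < Metric.diam Y ∧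
      ∀ A : Fin (64 + k + 1) → Set (EuclideanSpace ℝ (Fin (64 + k))), (⋃ i, A i) = Y →
        ∃ i, Metric.diam Y ≤ Metric.diam (A i) := by
  obtain ⟨a, hn, hd⟩ := exists_simplex k
  let E := WithLp 2 (space64 × EuclideanSpace ℝ (Fin k))
  have hdim : finrank ℝ E = 64 + k := by
    rw [(WithLp.linearEquiv 2 ℝ (space64 × EuclideanSpace ℝ (Fin k))).finrank_eq]
    simp [finrank_space64]
  let p : section352 ⊕ Fin k → E :=
    Sum.elim (fun u => WithLp.toLp 2 (⟨row u, row_mem_space64 u.2⟩, 0))
      fun i => WithLp.toLp 2 (0, a i)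
  have hsq : ∀ x y, dist (p x) (p y) ^ 2 = ‖(p x).fst - (p y).fst‖ ^ 2 +
      ‖(p x).snd - (p y).snd‖ ^ 2 := fun x y => by
    rw [dist_eq_norm, WithLp.prod_norm_sq_eq_of_L2]
    rfl
  have hrow : ∀ u : Fin 416, ‖row u‖ ^ 2 = 1440 := fun u => by
    rw [← real_inner_self_eq_norm_sq, inner_row_row, M_self]; norm_num
  have hlr : ∀ u i, dist (p (.inl u)) (p (.inr i)) ^ 2 = 3072 := fun u i => by
    rw [hsq]
    simp only [p, Sum.elim_inl, Sum.elim_inr, WithLp.toLp_fst, WithLp.toLp_snd, sub_zero,
      zero_sub, norm_neg, Submodule.coe_norm]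
    rw [hrow, hn]; norm_num
  have hrr : ∀ i j, i ≠ j → dist (p (.inr i)) (p (.inr j)) ^ 2 = 3072 := fun i j h => by
    rw [hsq]
    simp [p, hd i j h]
  have hll : ∀ u v : section352, u ≠ v → dist (p (.inl u)) (p (.inl v)) ^ 2 =
      if adjB (u : Fin 416) (v : Fin 416) = true then (2304 : ℝ) else 3072 := fun u v h => by
    have hne : (u : Fin 416) ≠ v := fun e => h (Subtype.ext e)
    rw [hsq]
    simp only [p, Sum.elim_inl, WithLp.toLp_fst, WithLp.toLp_snd, sub_zero, norm_zero,
      Submodule.coe_norm, Submodule.coe_sub, ne_eq, OfNat.ofNat_ne_zero, not_false_eq_true,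
      zero_pow, add_zero]
    rw [norm_sub_sq_real, hrow, hrow, inner_row_row, M_ne hne]
    split <;> norm_num
  have hD : (0 : ℝ) < Real.sqrt 3072 := by positivity
  have hDsq : Real.sqrt 3072 ^ 2 = 3072 := Real.sq_sqrt (by norm_num)
  have hle : ∀ x y, x ≠ y → dist (p x) (p y) ^ 2 ≤ 3072 := by
    rintro (u | i) (v | j) h
    · rw [hll u v fun e => h (congrArg Sum.inl e)]
      split <;> norm_num
    · exact (hlr u j).le
    · rw [dist_comm]; exact (hlr v i).le
    · exact (hrr i j fun e => h (congrArg Sum.inr e)).le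
  have hclique : ∀ s : Finset section352,
      (∀ u ∈ s, ∀ v ∈ s, dist (p (.inl u)) (p (.inl v)) < Real.sqrt 3072) → s.card ≤ 5 := by
    intro s hs
    rcases s.eq_empty_or_nonempty with rfl | ⟨u0, hu0⟩
    · simp
    have h := clique_card_le (u0 : Fin 416) (s.map (Function.Embedding.subtype _))
      (Finset.mem_map_of_mem _ hu0) (by
      intro x hx y hy hxy
      obtain ⟨u, hu, rfl⟩ := Finset.mem_map.1 hx
      obtain ⟨v, hv, rfl⟩ := Finset.mem_map.1 hy
      by_contra hc
      have h1 := pow_lt_pow_left₀ (hs u hu v hv) dist_nonneg two_ne_zero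
      rw [hll u v fun e => hxy (by rw [e]), hDsq] at h1
      rw [if_neg (by simpa using hc)] at h1
      exact lt_irrefl _ h1)
    rwa [Finset.card_map] at h
  refine cover_criterion hdim p (Real.sqrt 3072) hD ?_ ?_ (Sum.elim (fun _ => 1) fun _ => 5) 5
    ?_ ?_
  · intro x y
    rcases eq_or_ne x y with rfl | h
    · simpa using hD.le
    · exact Real.le_sqrt_of_sq_le (hle x y h)
  · by_contra hc
    push Not at hc
    have h := hclique Finset.univ fun u _ v _ =>
      lt_of_le_of_ne (by
        rcases eq_or_ne u v with rfl | e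
        · rw [dist_self]; exact hD.le
        · exact Real.le_sqrt_of_sq_le (hle _ _ fun e' => e (Sum.inl_injective e'))) (hc _ _)
    simp [card_section352] at h
  · intro s hs
    by_cases hr : ∃ i, Sum.inr i ∈ s
    · obtain ⟨i, hi⟩ := hr
      have : s = {Sum.inr i} := by
        refine Finset.eq_singleton_iff_unique_mem.2 ⟨hi, fun x hx => ?_⟩
        by_contra hne
        have h1 := pow_lt_pow_left₀ (hs x hx _ hi) dist_nonneg two_ne_zero
        rw [hDsq] at h1
        rcases x with u | j
        · rw [hlr u i] at h1; exact lt_irrefl _ h1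
        · rw [hrr j i fun e => hne (by rw [e])] at h1; exact lt_irrefl _ h1
      simp [this]
    · push Not at hr
      have hsum : ∑ x ∈ s, Sum.elim (fun _ => 1) (fun _ => 5) x = s.toLeft.card := by
        rw [Finset.sum_congr rfl (g := fun _ => 1) (fun x hx => ?_)]
        · conv_lhs => rw [← Finset.toLeft_disjSum_toRight (u := s)]
          have : s.toRight = ∅ := Finset.eq_empty_of_forall_notMem fun i hi =>
            hr i (Finset.mem_toRight.1 hi)
          simp [this]
        · rcases x with u | i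
          · rfl
          · exact absurd hx (hr i)
      rw [hsum]
      exact hclique _ fun u hu v hv =>
        hs _ (Finset.mem_toLeft.1 hu) _ (Finset.mem_toLeft.1 hv)
  · simp [Fintype.sum_sum_type, card_section352]
    omega

end Vale.Agent.P052
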